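import Vale.Agent.P078.Bdl.W4

namespace Vale.Agent.Results.P078.AllMASAs

open Vale.Agent.P078.SO

theorem result {H : Type*} [NormedAddCommGroup H] [InnerProductSpace ℂ H] [CompleteSpace H]
    (M A : VonNeumannAlgebra H) (hA : IsMASA A M) :
    (∀ ε : ℝ, 0 < ε → ε < 1 → pavingNumber M A 1 ε ≤ ⌈1200002 / ε ^ 2⌉₊) ∧
    (IsTypeII1Factor M → ∀ ε : ℝ, 0 < ε → ⌈1 / ε ^ 2⌉₊ ≤ pavingNumber M A 1 ε) :=
  Vale.Agent.P078.WG.main_all M A hA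

end Vale.Agent.Results.P078.AllMASAs
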